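import Vale.Agent.Lib.P362.Defs

/-! P362: substitution and truncation of decision trees. -/

namespace P362

namespace DT

variable {V W R S : Type}

/-- replace the variable `v` by the variable or the constant `g v` -/
def sub (g : V → W ⊕ Bool) : DT V R → DT W R
  | leaf r => leaf r
  | node v t0 t1 =>
    match g v with
    | Sum.inl w => node w (sub g t0) (sub g t1)
    | Sum.inr b => if b then sub g t1 else sub g t0

/-- the input seen by the original tree -/
def subIn (g : V → W ⊕ Bool) (x : W → Bool) (v : V) : Bool := Sum.elim x id (g v)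

theorem eval_sub (g : V → W ⊕ Bool) (t : DT V R) (x : W → Bool) :
    (t.sub g).eval x = t.eval (subIn g x) := by
  induction t with
  | leaf r => rfl
  | node v t0 t1 h0 h1 =>
    rcases hg : g v with w | b
    · have h2 : subIn g x v = x w := by unfold subIn; rw [hg]; rfl
      have h3 : (node v t0 t1 : DT V R).sub g = node w (sub g t0) (sub g t1) := by
        rw [sub, hg]
      rw [h3, eval, eval, h2, h0, h1]
    · have h2 : subIn g x v = b := by unfold subIn; rw [hg]; rfl
      have h3 : (node v t0 t1 : DT V R).sub g = if b then sub g t1 else sub g t0 := by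
        rw [sub, hg]
      rw [h3, eval, h2]
      cases b
      · exact h0
      · exact h1

theorem depth_sub_le (g : V → W ⊕ Bool) (t : DT V R) : (t.sub g).depth ≤ t.depth := by
  induction t with
  | leaf r => exact le_rfl
  | node v t0 t1 h0 h1 =>
    rcases hg : g v with w | b
    · have h3 : (node v t0 t1 : DT V R).sub g = node w (sub g t0) (sub g t1) := by
        rw [sub, hg]
      rw [h3, depth, depth]
      omega
    · have h3 : (node v t0 t1 : DT V R).sub g = if b then sub g t1 else sub g t0 := by
        rw [sub, hg]
      rw [h3, depth]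
      cases b
      · change (sub g t0).depth ≤ _
        omega
      · change (sub g t1).depth ≤ _
        omega

/-- relabel the leaves -/
def map (f : R → S) : DT V R → DT V S
  | leaf r => leaf (f r)
  | node v t0 t1 => node v (map f t0) (map f t1)

theorem eval_map (f : R → S) (t : DT V R) (x : V → Bool) : (t.map f).eval x = f (t.eval x) := by
  induction t with
  | leaf r => rfl
  | node v t0 t1 h0 h1 =>
    rw [map, eval, eval, h0, h1]
    split_ifs <;> rfl

theorem depth_map (f : R → S) (t : DT V R) : (t.map f).depth = t.depth := by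
  induction t with
  | leaf r => rfl
  | node v t0 t1 h0 h1 => rw [map, depth, depth, h0, h1]

/-- number of queries of variables with `p v = true` on the input `x` -/
def cnt (p : V → Bool) : DT V R → (V → Bool) → ℕ
  | leaf _, _ => 0
  | node v t0 t1, x => (if p v then 1 else 0) + if x v then t1.cnt p x else t0.cnt p x

/-- the queries on `x` counted in several disjoint classes -/
theorem sum_cnt_le {J : Type} [Fintype J] (p : J → V → Bool)
    (hp : ∀ v j j', p j v = true → p j' v = true → j = j') (t : DT V R) (x : V → Bool) :
    ∑ j, t.cnt (p j) x ≤ t.depth := by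
  classical
  induction t with
  | leaf r => simp [cnt, depth]
  | node v t0 t1 h0 h1 =>
    have h2 : ∑ j, (if p j v then 1 else 0) ≤ 1 := by
      rw [Finset.sum_boole, Nat.cast_id, Finset.card_le_one]
      intro j hj j' hj'
      rw [Finset.mem_filter] at hj hj'
      exact hp v j j' hj.2 hj'.2
    have h3 : ∑ j, (node v t0 t1 : DT V R).cnt (p j) x =
        ∑ j, (if p j v then 1 else 0) + if x v then ∑ j, t1.cnt (p j) x
          else ∑ j, t0.cnt (p j) x := by
      simp only [cnt]
      rw [Finset.sum_add_distrib]
      split_ifs <;> rfl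
    rw [h3, depth]
    split_ifs
    · omega
    · omega

/-- stop (with answer `none`) before a query with `p2 v = true` and before the query number
`q + 1` with `p1 v = true` -/
def trunc (p1 p2 : V → Bool) : ℕ → DT V R → DT V (Option R)
  | _, leaf r => leaf (some r)
  | q, node v t0 t1 =>
    if p2 v then leaf none
    else if p1 v then
      if q = 0 then leaf none
      else node v (trunc p1 p2 (q - 1) t0) (trunc p1 p2 (q - 1) t1)
    else node v (trunc p1 p2 q t0) (trunc p1 p2 q t1)

theorem trunc_stop (p1 p2 : V → Bool) {v : V} (t0 t1 : DT V R) (q : ℕ) (h2 : p2 v = true) :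
    (node v t0 t1).trunc p1 p2 q = leaf none := by
  rw [trunc, if_pos h2]

theorem trunc_zero (p1 p2 : V → Bool) {v : V} (t0 t1 : DT V R) (h2 : ¬ p2 v = true)
    (h3 : p1 v = true) : (node v t0 t1).trunc p1 p2 0 = leaf none := by
  rw [trunc, if_neg h2, if_pos h3, if_pos rfl]

theorem trunc_succ (p1 p2 : V → Bool) {v : V} (t0 t1 : DT V R) (q : ℕ) (h2 : ¬ p2 v = true)
    (h3 : p1 v = true) : (node v t0 t1).trunc p1 p2 (q + 1) =
      node v (t0.trunc p1 p2 q) (t1.trunc p1 p2 q) := by
  rw [trunc, if_neg h2, if_pos h3, if_neg (Nat.succ_ne_zero q)]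
  rfl

theorem trunc_free (p1 p2 : V → Bool) {v : V} (t0 t1 : DT V R) (q : ℕ) (h2 : ¬ p2 v = true)
    (h3 : ¬ p1 v = true) : (node v t0 t1).trunc p1 p2 q =
      node v (t0.trunc p1 p2 q) (t1.trunc p1 p2 q) := by
  rw [trunc, if_neg h2, if_neg h3]

/-- the truncated tree gives the right answer or gives up -/
theorem trunc_eval (p1 p2 : V → Bool) (t : DT V R) (x : V → Bool) (q : ℕ) :
    (t.trunc p1 p2 q).eval x = some (t.eval x) ∨
      ((t.trunc p1 p2 q).eval x = none ∧ (q + 1 ≤ t.cnt p1 x ∨ 1 ≤ t.cnt p2 x)) := by
  induction t generalizing q with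
  | leaf r => exact Or.inl rfl
  | node v t0 t1 h0 h1 =>
    by_cases h2 : p2 v = true
    · right
      refine ⟨?_, Or.inr ?_⟩
      · rw [trunc_stop _ _ _ _ _ h2]; rfl
      · rw [cnt, if_pos h2]; omega
    · by_cases h3 : p1 v = true
      · rcases q with _ | q
        · right
          refine ⟨?_, Or.inl ?_⟩
          · rw [trunc_zero _ _ _ _ h2 h3]; rfl
          · rw [cnt, if_pos h3]; omega
        · have h4 := trunc_succ p1 p2 t0 t1 q h2 h3
          rw [h4, eval, eval, cnt, cnt, if_pos h3, if_neg h2]
          cases x v
          · rcases h0 q with h5 | ⟨h5, h6⟩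
            · exact Or.inl h5
            · refine Or.inr ⟨h5, ?_⟩
              change q + 1 + 1 ≤ 1 + t0.cnt p1 x ∨ 1 ≤ 0 + t0.cnt p2 x
              omega
          · rcases h1 q with h5 | ⟨h5, h6⟩
            · exact Or.inl h5
            · refine Or.inr ⟨h5, ?_⟩
              change q + 1 + 1 ≤ 1 + t1.cnt p1 x ∨ 1 ≤ 0 + t1.cnt p2 x
              omega
      · have h4 := trunc_free p1 p2 t0 t1 q h2 h3
        rw [h4, eval, eval, cnt, cnt, if_neg h3, if_neg h2]
        cases x v
        · rcases h0 q with h5 | ⟨h5, h6⟩
          · exact Or.inl h5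
          · refine Or.inr ⟨h5, ?_⟩
            change q + 1 ≤ 0 + t0.cnt p1 x ∨ 1 ≤ 0 + t0.cnt p2 x
            omega
        · rcases h1 q with h5 | ⟨h5, h6⟩
          · exact Or.inl h5
          · refine Or.inr ⟨h5, ?_⟩
            change q + 1 ≤ 0 + t1.cnt p1 x ∨ 1 ≤ 0 + t1.cnt p2 x
            omega

/-- the truncated tree does not see the variables with `p2 v = true` -/
theorem trunc_congr (p1 p2 : V → Bool) (t : DT V R) (x x' : V → Bool)
    (h : ∀ v, p2 v = false → x v = x' v) (q : ℕ) :
    (t.trunc p1 p2 q).eval x = (t.trunc p1 p2 q).eval x' := by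
  induction t generalizing q with
  | leaf r => rfl
  | node v t0 t1 h0 h1 =>
    by_cases h2 : p2 v = true
    · rw [trunc_stop _ _ _ _ _ h2]; rfl
    · have h2' : p2 v = false := by simpa using h2
      by_cases h3 : p1 v = true
      · rcases q with _ | q
        · rw [trunc_zero _ _ _ _ h2 h3]; rfl
        · have h4 := trunc_succ p1 p2 t0 t1 q h2 h3
          rw [h4, eval, eval, h v h2', h0, h1]
      · have h4 := trunc_free p1 p2 t0 t1 q h2 h3
        rw [h4, eval, eval, h v h2', h0, h1]

/-- after fixing the variables which are not counted, the truncated tree has depth at most `q` -/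
theorem depth_trunc_sub_le (p1 p2 : V → Bool) (g : V → W ⊕ Bool)
    (hg : ∀ v w, g v = Sum.inl w → p1 v = true) (t : DT V R) (q : ℕ) :
    ((t.trunc p1 p2 q).sub g).depth ≤ q := by
  induction t generalizing q with
  | leaf r => exact Nat.zero_le _
  | node v t0 t1 h0 h1 =>
    by_cases h2 : p2 v = true
    · rw [trunc_stop _ _ _ _ _ h2]; exact Nat.zero_le _
    · by_cases h3 : p1 v = true
      · rcases q with _ | q
        · rw [trunc_zero _ _ _ _ h2 h3]; exact Nat.zero_le _
        · have h4 := trunc_succ p1 p2 t0 t1 q h2 h3
          rw [h4]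
          rcases hgv : g v with w | b
          · rw [sub, hgv]
            change max _ _ + 1 ≤ _
            have := h0 q
            have := h1 q
            omega
          · rw [sub, hgv]
            cases b
            · exact (h0 q).trans (Nat.le_succ _)
            · exact (h1 q).trans (Nat.le_succ _)
      · have h4 := trunc_free p1 p2 t0 t1 q h2 h3
        rw [h4]
        rcases hgv : g v with w | b
        · exact absurd (hg v w hgv) h3
        · rw [sub, hgv]
          cases b
          · exact h0 q
          · exact h1 q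

end DT

end P362
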