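import Vale.Agent.Lib.P362.Interface
import Vale.Agent.Lib.P362.Hyb.Sub

/-! P362: the hybrid argument. -/

namespace P362

open DT

section Split

variable {B X : Type} [Fintype B] [DecidableEq B] [Fintype X]

/-- insert `z` at the place `b` -/
def ins (b : B) (z : X) (r : {j : B // j ≠ b} → X) (j : B) : X :=
  if h : j = b then z else r ⟨j, h⟩

theorem ins_self (b : B) (z : X) (r : {j : B // j ≠ b} → X) : ins b z r b = z := by
  rw [ins, dif_pos rfl]

theorem ins_ne (b : B) (z : X) (r : {j : B // j ≠ b} → X) (j : {j : B // j ≠ b}) :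
    ins b z r j = r j := by
  rw [ins, dif_neg j.2]

theorem sum_ins (b : B) (f : (B → X) → ℝ) :
    ∑ c : B → X, f c = ∑ r : {j : B // j ≠ b} → X, ∑ z : X, f (ins b z r) := by
  classical
  rw [← (Equiv.funSplitAt b X).symm.sum_comp, Fintype.sum_prod_type_right]
  refine Finset.sum_congr rfl fun r _ => Finset.sum_congr rfl fun z _ => ?_
  congr 1
  funext j
  by_cases h : j = b
  · subst h
    simp [Equiv.funSplitAt, Equiv.piSplitAt, ins]
  · simp [Equiv.funSplitAt, Equiv.piSplitAt, ins, h]

theorem prod_ins (b : B) (z : X) (r : {j : B // j ≠ b} → X) (μ : X → ℝ) :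
    ∏ b' ∈ Finset.univ.erase b, μ (ins b z r b') = ∏ j, μ (r j) := by
  rw [Finset.prod_subtype (p := fun j => j ≠ b) (Finset.univ.erase b) (by simp)]
  refine Finset.prod_congr rfl fun j _ => ?_
  rw [ins_ne]

theorem sum_prod_one {J : Type} [Fintype J] [DecidableEq J] (μ : X → ℝ) (hμ : ∑ x, μ x = 1) :
    ∑ r : J → X, ∏ j, μ (r j) = 1 := by
  classical
  have h := Finset.prod_univ_sum (fun _ : J => (Finset.univ : Finset X)) (fun _ x => μ x)
  rw [Fintype.piFinset_univ] at h
  rw [← h]
  simp only [hμ, Finset.prod_const_one]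

end Split

section Hyb

variable {B A V1 V2 : Type} [Fintype B] [DecidableEq B] [Fintype A] [DecidableEq A]
  [Fintype V1] [DecidableEq V1] [Fintype V2] [DecidableEq V2]

/-- the variables of the column `b` -/
def isCol (b : B) : (B × V1) ⊕ (A × V2) → Bool
  | Sum.inl p => decide (p.1 = b)
  | Sum.inr _ => false

/-- the variables of the cell `ρ` -/
def isCell (ρ : A) : (B × V1) ⊕ (A × V2) → Bool
  | Sum.inl _ => false
  | Sum.inr p => decide (p.1 = ρ)

/-- `none` and `true` count as acceptance -/
def accO (o : Option Bool) : Bool := o.getD true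

/-- fix everything outside the column `b` -/
def fixCol (b : B) (r : {j : B // j ≠ b} → (V1 → Bool)) : (B × V1) ⊕ (A × V2) → V1 ⊕ Bool
  | Sum.inl p => if h : p.1 = b then Sum.inl p.2 else Sum.inr (r ⟨p.1, h⟩ p.2)
  | Sum.inr _ => Sum.inr false

omit [Fintype B] [Fintype A] [DecidableEq A] [Fintype V1] [DecidableEq V1] [Fintype V2]
  [DecidableEq V2] in
theorem subIn_fixCol (b : B) (r : {j : B // j ≠ b} → (V1 → Bool)) (z : V1 → Bool) :
    subIn (fixCol (A := A) (V2 := V2) b r) z = asm0 (ins b z r) := by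
  funext v
  rcases v with p | p
  · by_cases h : p.1 = b
    · have h1 : fixCol (A := A) (V2 := V2) b r (Sum.inl p) = Sum.inl p.2 := by
        rw [fixCol, dif_pos h]
      unfold subIn
      rw [h1, asm0, ins, dif_pos h]
      rfl
    · have h1 : fixCol (A := A) (V2 := V2) b r (Sum.inl p) = Sum.inr (r ⟨p.1, h⟩ p.2) := by
        rw [fixCol, dif_neg h]
      unfold subIn
      rw [h1, asm0, ins, dif_neg h]
      rfl
  · rfl

omit [Fintype B] [Fintype A] [Fintype V1] [DecidableEq V1] [Fintype V2]
  [DecidableEq V2] in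
theorem fixCol_col (b : B) (r : {j : B // j ≠ b} → (V1 → Bool))
    (v : (B × V1) ⊕ (A × V2)) (w : V1) (h : fixCol b r v = Sum.inl w) : isCol b v = true := by
  rcases v with p | p
  · by_cases h1 : p.1 = b
    · rw [isCol, decide_eq_true h1]
    · rw [fixCol, dif_neg h1] at h
      exact absurd h (by simp)
  · exact absurd h (by simp [fixCol])

/-- replacing the law of one column -/
theorem hyb_step (μ ν : (V1 → Bool) → ℝ) (η : ℝ) (q : ℕ) (hμ : IsLaw μ)
    (hc : ∀ T : DT V1 Bool, T.depth ≤ q → |acc ν T - acc μ T| ≤ η) (b : B)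
    (T : DT ((B × V1) ⊕ (A × V2)) (Option Bool))
    (hT : ∀ r, (T.sub (fixCol b r)).depth ≤ q) :
    ∑ c : B → V1 → Bool, (ν (c b) * ∏ b' ∈ Finset.univ.erase b, μ (c b')) *
      (if accO (T.eval (asm0 c)) = true then 1 else 0) ≤
    ∑ c : B → V1 → Bool, (∏ b', μ (c b')) *
      (if accO (T.eval (asm0 c)) = true then 1 else 0) + η := by
  rw [sum_ins b, sum_ins b (fun c => (∏ b', μ (c b')) *
      (if accO (T.eval (asm0 c)) = true then (1 : ℝ) else 0))]
  have h1 : (η : ℝ) = ∑ r : {j : B // j ≠ b} → (V1 → Bool), (∏ j, μ (r j)) * η := by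
    rw [← Finset.sum_mul, sum_prod_one μ hμ.2, one_mul]
  have h2 : ∀ r : {j : B // j ≠ b} → (V1 → Bool), 0 ≤ ∏ j, μ (r j) := fun r =>
    Finset.prod_nonneg fun j _ => hμ.1 _
  rw [h1, ← Finset.sum_add_distrib]
  refine Finset.sum_le_sum fun r _ => ?_
  have h3 : ∀ z : V1 → Bool, ((T.sub (fixCol b r)).map accO).eval z =
      accO (T.eval (asm0 (ins b z r))) := fun z => by
    rw [eval_map, eval_sub, subIn_fixCol]
  have h4 := hc ((T.sub (fixCol b r)).map accO) (by rw [depth_map]; exact hT r)
  have h5 : ∑ z : V1 → Bool, (ν (ins b z r b) *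
        ∏ b' ∈ Finset.univ.erase b, μ (ins b z r b')) *
        (if accO (T.eval (asm0 (ins b z r))) = true then 1 else 0) =
      (∏ j, μ (r j)) * acc ν ((T.sub (fixCol b r)).map accO) := by
    rw [acc, Finset.mul_sum]
    refine Finset.sum_congr rfl fun z _ => ?_
    rw [h3, prod_ins, ins_self]
    split_ifs <;> ring
  have h6 : ∑ z : V1 → Bool, (∏ b', μ (ins b z r b')) *
        (if accO (T.eval (asm0 (ins b z r))) = true then 1 else 0) =
      (∏ j, μ (r j)) * acc μ ((T.sub (fixCol b r)).map accO) := by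
    rw [acc, Finset.mul_sum]
    refine Finset.sum_congr rfl fun z _ => ?_
    rw [h3, ← Finset.mul_prod_erase Finset.univ _ (Finset.mem_univ b), prod_ins, ins_self]
    split_ifs <;> ring
  rw [h5, h6, ← mul_add]
  refine mul_le_mul_of_nonneg_left ?_ (h2 r)
  have := (abs_le.1 h4).2
  linarith

end Hyb

theorem partHyb : PartHyb := by
  intro B A V1 V2 _ _ _ _ _ _ _ _ _ _ μ ν y η q t hμ hν hη hc T hT
  have hB : (0 : ℝ) < Fintype.card B := by exact_mod_cast Fintype.card_pos
  have hA : (0 : ℝ) < Fintype.card A := by exact_mod_cast Fintype.card_pos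
  have hw : ∀ c : B → V1 → Bool, 0 ≤ ∏ b', μ (c b') := fun c =>
    Finset.prod_nonneg fun j _ => hμ.1 _
  have hw1 : ∀ b ρ (c : B → V1 → Bool),
      0 ≤ ν ρ (c b) * ∏ b' ∈ Finset.univ.erase b, μ (c b') := fun b ρ c =>
    mul_nonneg ((hν ρ).1 _) (Finset.prod_nonneg fun j _ => hμ.1 _)
  have hsum : ∑ c : B → V1 → Bool, ∏ b', μ (c b') = 1 := sum_prod_one μ hμ.2
  -- one pair `(b, ρ)`
  have h1 : ∀ b ρ, ∑ c : B → V1 → Bool,
        (ν ρ (c b) * ∏ b' ∈ Finset.univ.erase b, μ (c b')) *
          (if T.eval (asm c ρ (y b ρ c)) = true then 1 else 0) ≤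
      (∑ c : B → V1 → Bool, (∏ b', μ (c b')) * (if T.eval (asm0 c) = true then 1 else 0)) +
        η + (∑ c : B → V1 → Bool, (∏ b', μ (c b')) * ((T.cnt (isCol b) (asm0 c) : ℝ) / (q + 1) +
          T.cnt (isCell ρ) (asm0 c))) := by
    intro b ρ
    have h2 : ∀ r, ((T.trunc (isCol b) (isCell ρ) q).sub (fixCol b r)).depth ≤ q := fun r =>
      depth_trunc_sub_le _ _ _ (fun v w h => fixCol_col b r v w h) T q
    have h3 := hyb_step μ (ν ρ) η q hμ (hc ρ) b (T.trunc (isCol b) (isCell ρ) q) h2
    have h4 : ∑ c : B → V1 → Bool,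
        (ν ρ (c b) * ∏ b' ∈ Finset.univ.erase b, μ (c b')) *
          (if T.eval (asm c ρ (y b ρ c)) = true then 1 else 0) ≤
        ∑ c : B → V1 → Bool, (ν ρ (c b) * ∏ b' ∈ Finset.univ.erase b, μ (c b')) *
          (if accO ((T.trunc (isCol b) (isCell ρ) q).eval (asm0 c)) = true then 1 else 0) := by
      refine Finset.sum_le_sum fun c _ => mul_le_mul_of_nonneg_left ?_ (hw1 b ρ c)
      have h5 : (T.trunc (isCol b) (isCell ρ) q).eval (asm0 c) =
          (T.trunc (isCol b) (isCell ρ) q).eval (asm c ρ (y b ρ c)) := by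
        refine trunc_congr _ _ T _ _ (fun v hv => ?_) q
        rcases v with p | p
        · rfl
        · have h6 : ¬ p.1 = ρ := by
            intro h7
            rw [isCell, decide_eq_true h7] at hv
            exact absurd hv (by decide)
          rw [asm, asm0, if_neg h6]
      rw [h5]
      rcases trunc_eval (isCol b) (isCell ρ) T (asm c ρ (y b ρ c)) q with h6 | ⟨h6, _⟩
      · rw [h6]
        exact le_rfl
      · rw [h6]
        change _ ≤ (if true = true then (1 : ℝ) else 0)
        rw [if_pos rfl]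
        split_ifs
        · exact le_rfl
        · exact zero_le_one
    have h5 : ∑ c : B → V1 → Bool, (∏ b', μ (c b')) *
          (if accO ((T.trunc (isCol b) (isCell ρ) q).eval (asm0 c)) = true then 1 else 0) ≤
        (∑ c : B → V1 → Bool, (∏ b', μ (c b')) * (if T.eval (asm0 c) = true then 1 else 0)) +
        (∑ c : B → V1 → Bool, (∏ b', μ (c b')) * ((T.cnt (isCol b) (asm0 c) : ℝ) / (q + 1) +
          T.cnt (isCell ρ) (asm0 c))) := by
      rw [← Finset.sum_add_distrib]
      refine Finset.sum_le_sum fun c _ => ?_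
      rw [← mul_add]
      refine mul_le_mul_of_nonneg_left ?_ (hw c)
      have hq : (0 : ℝ) < (q : ℝ) + 1 := by positivity
      have h8 : (0 : ℝ) ≤ (T.cnt (isCol b) (asm0 (A := A) (V2 := V2) c) : ℝ) / (q + 1) := by
        positivity
      have h9 : (0 : ℝ) ≤ T.cnt (isCell ρ) (asm0 (A := A) (V2 := V2) c) := by positivity
      rcases trunc_eval (isCol b) (isCell ρ) T (asm0 c) q with h6 | ⟨h6, h7⟩
      · rw [h6]
        change (if T.eval (asm0 c) = true then (1 : ℝ) else 0) ≤ _
        linarith
      · rw [h6]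
        have h10 : (1 : ℝ) ≤ (T.cnt (isCol b) (asm0 c) : ℝ) / (q + 1) +
            T.cnt (isCell ρ) (asm0 c) := by
          rcases h7 with h7 | h7
          · have h11 : (1 : ℝ) ≤ (T.cnt (isCol b) (asm0 c) : ℝ) / (q + 1) := by
              rw [le_div_iff₀ hq, one_mul]
              exact_mod_cast h7
            linarith
          · have h11 : (1 : ℝ) ≤ T.cnt (isCell ρ) (asm0 c) := by exact_mod_cast h7
            linarith
        have h12 : (0 : ℝ) ≤ if T.eval (asm0 c) = true then (1 : ℝ) else 0 := by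
          split_ifs
          · exact zero_le_one
          · exact le_rfl
        change (1 : ℝ) ≤ _
        linarith
    linarith
  -- counting
  have h2 : ∀ c : B → V1 → Bool, ∑ b : B, (T.cnt (isCol b) (asm0 c) : ℝ) ≤ t := by
    intro c
    have h3 := sum_cnt_le (fun b : B => isCol b) (fun v j j' h h' => by
      rcases v with p | p
      · exact (of_decide_eq_true h).symm.trans (of_decide_eq_true h')
      · exact absurd h (by simp [isCol])) T (asm0 c)
    exact_mod_cast h3.trans hT
  have h3 : ∀ c : B → V1 → Bool, ∑ ρ : A, (T.cnt (isCell ρ) (asm0 c) : ℝ) ≤ t := by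
    intro c
    have h3 := sum_cnt_le (fun ρ : A => isCell ρ) (fun v j j' h h' => by
      rcases v with p | p
      · exact absurd h (by simp [isCell])
      · exact (of_decide_eq_true h).symm.trans (of_decide_eq_true h')) T (asm0 c)
    exact_mod_cast h3.trans hT
  set P0 : ℝ := ∑ c : B → V1 → Bool, (∏ b', μ (c b')) *
    (if T.eval (asm0 c) = true then 1 else 0) with hP0
  have h4 : ∑ b : B, ∑ ρ : A, ∑ c : B → V1 → Bool,
        (ν ρ (c b) * ∏ b' ∈ Finset.univ.erase b, μ (c b')) *
          (if T.eval (asm c ρ (y b ρ c)) = true then 1 else 0) ≤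
      Fintype.card B * Fintype.card A * (P0 + η) +
        (Fintype.card A * (t / (q + 1)) + Fintype.card B * t) := by
    calc _ ≤ ∑ b : B, ∑ ρ : A, (P0 + η + ∑ c : B → V1 → Bool, (∏ b', μ (c b')) *
            ((T.cnt (isCol b) (asm0 c) : ℝ) / (q + 1) + T.cnt (isCell ρ) (asm0 c))) :=
          Finset.sum_le_sum fun b _ => Finset.sum_le_sum fun ρ _ => h1 b ρ
      _ = Fintype.card B * Fintype.card A * (P0 + η) +
          ∑ c : B → V1 → Bool, (∏ b', μ (c b')) *
            (Fintype.card A * ((∑ b : B, (T.cnt (isCol b) (asm0 c) : ℝ)) / (q + 1)) +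
              Fintype.card B * ∑ ρ : A, (T.cnt (isCell ρ) (asm0 c) : ℝ)) := by
          simp only [Finset.sum_add_distrib, Finset.sum_const, Finset.card_univ, nsmul_eq_mul]
          congr 1
          · ring
          · have h5 : ∀ b : B, ∑ ρ : A, ∑ c : B → V1 → Bool, (∏ b', μ (c b')) *
                ((T.cnt (isCol b) (asm0 c) : ℝ) / (q + 1) + T.cnt (isCell ρ) (asm0 c)) =
                ∑ c : B → V1 → Bool, (∏ b', μ (c b')) *
                  (Fintype.card A * ((T.cnt (isCol b) (asm0 c) : ℝ) / (q + 1)) +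
                    ∑ ρ : A, (T.cnt (isCell ρ) (asm0 c) : ℝ)) := by
              intro b
              rw [Finset.sum_comm]
              refine Finset.sum_congr rfl fun c _ => ?_
              rw [← Finset.mul_sum, Finset.sum_add_distrib, Finset.sum_const, Finset.card_univ,
                nsmul_eq_mul]
            simp only [h5]
            rw [Finset.sum_comm]
            refine Finset.sum_congr rfl fun c _ => ?_
            rw [← Finset.mul_sum, Finset.sum_add_distrib, Finset.sum_const, Finset.card_univ,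
              nsmul_eq_mul, ← Finset.mul_sum, Finset.sum_div]
      _ ≤ Fintype.card B * Fintype.card A * (P0 + η) +
          ∑ c : B → V1 → Bool, (∏ b', μ (c b')) *
            (Fintype.card A * (t / (q + 1)) + Fintype.card B * t) := by
          refine add_le_add le_rfl (Finset.sum_le_sum fun c _ =>
            mul_le_mul_of_nonneg_left (add_le_add ?_ ?_) (hw c))
          · exact mul_le_mul_of_nonneg_left (div_le_div_of_nonneg_right (h2 c) (by positivity))
              hA.le
          · exact mul_le_mul_of_nonneg_left (h3 c) hB.le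
      _ = _ := by rw [← Finset.sum_mul, hsum, one_mul]
  rw [div_le_iff₀ (mul_pos hB hA)]
  refine h4.trans ?_
  have h5 : (P0 + (t : ℝ) / (Fintype.card B * (q + 1)) + t / Fintype.card A + 3 * η) *
      (Fintype.card B * Fintype.card A) = Fintype.card B * Fintype.card A * (P0 + η) +
        (Fintype.card A * (t / (q + 1)) + Fintype.card B * t) +
        2 * η * (Fintype.card B * Fintype.card A) := by
    field_simp
    ring
  rw [h5]
  have h6 : 0 ≤ 2 * η * (Fintype.card B * Fintype.card A) := by positivity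
  linarith

end P362
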